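import Mathlib

/-!
# Row 250 (helper6): the weighted Wiener algebra `ℓ¹(ℤ; A)`

`A` is a commutative Banach algebra, `ω : WiW A` a submultiplicative weight with values in `A`,
`Wi ω` the algebra of Fourier series `∑ co u m • e^{i m θ}` with `‖u‖ = ∑ ‖w m * co u m‖`.
-/

set_option autoImplicit false
set_option linter.unusedSectionVars false
open scoped ENNReal NNReal
open Complex MeasureTheory

noncomputable section

namespace Crest.Agent.N250

/-- a submultiplicative invertible weight -/
structure WiW (A : Type*) [NormedCommRing A] where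
  w : ℤ → A
  wi : ℤ → A
  mul_inv : ∀ m, w m * wi m = 1
  zero : w 0 = 1
  sub : ∀ j l, ‖w (j + l) * (wi j * wi l)‖ ≤ 1
  inv_le : ∀ m, ‖wi m‖ ≤ 1

/-- weighted `ℓ¹(ℤ; A)`; the stored sequence is `w m * co u m` -/
def Wi {A : Type*} [NormedCommRing A] (_ω : WiW A) : Type _ := lp (fun _ : ℤ => A) 1

namespace Wi

variable {A : Type*} [NormedCommRing A] {ω : WiW A}

instance : NormedAddCommGroup (Wi ω) := inferInstanceAs (NormedAddCommGroup (lp (fun _ : ℤ => A) 1))

instance [CompleteSpace A] : CompleteSpace (Wi ω) :=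
  inferInstanceAs (CompleteSpace (lp (fun _ : ℤ => A) 1))

instance [NormedAlgebra ℂ A] : NormedSpace ℂ (Wi ω) :=
  inferInstanceAs (NormedSpace ℂ (lp (fun _ : ℤ => A) 1))

/-- the underlying element of `lp` -/
def toLp (u : Wi ω) : lp (fun _ : ℤ => A) 1 := u

/-- the weighted coefficients -/
def raw (u : Wi ω) (m : ℤ) : A := toLp u m

/-- the Fourier coefficients -/
def co (u : Wi ω) (m : ℤ) : A := ω.wi m * raw u m

theorem w_mul_co (u : Wi ω) (m : ℤ) : ω.w m * co u m = raw u m := by
  rw [co, ← mul_assoc, ω.mul_inv, one_mul]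

theorem summable_raw (u : Wi ω) : Summable fun m => ‖raw u m‖ := by
  have h := (lp.memℓp (toLp u)).summable (by simp)
  simpa [raw] using h

theorem norm_eq_raw (u : Wi ω) : ‖u‖ = ∑' m, ‖raw u m‖ := by
  have h := lp.norm_eq_tsum_rpow (p := 1) (by simp) (toLp u)
  have e : ‖u‖ = ‖toLp u‖ := rfl
  rw [e]
  simpa [raw] using h

theorem summable_w (u : Wi ω) : Summable fun m => ‖ω.w m * co u m‖ := by
  simpa only [w_mul_co] using summable_raw u

theorem norm_eq (u : Wi ω) : ‖u‖ = ∑' m, ‖ω.w m * co u m‖ := by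
  simpa only [w_mul_co] using norm_eq_raw u

theorem hasSum_norm (u : Wi ω) : HasSum (fun m => ‖ω.w m * co u m‖) ‖u‖ := by
  rw [norm_eq]; exact (summable_w u).hasSum

theorem norm_co_le_raw (u : Wi ω) (m : ℤ) : ‖co u m‖ ≤ ‖raw u m‖ :=
  (norm_mul_le _ _).trans (mul_le_of_le_one_left (norm_nonneg _) (ω.inv_le m))

theorem norm_raw_le (u : Wi ω) (m : ℤ) : ‖raw u m‖ ≤ ‖u‖ := by
  rw [norm_eq_raw]; exact (summable_raw u).le_tsum m fun _ _ => norm_nonneg _

theorem norm_w_co_le (u : Wi ω) (m : ℤ) : ‖ω.w m * co u m‖ ≤ ‖u‖ := by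
  rw [w_mul_co]; exact norm_raw_le u m

theorem norm_co_le (u : Wi ω) (m : ℤ) : ‖co u m‖ ≤ ‖u‖ :=
  (norm_co_le_raw u m).trans (norm_raw_le u m)

theorem summable_co (u : Wi ω) : Summable fun m => ‖co u m‖ :=
  (summable_raw u).of_nonneg_of_le (fun _ => norm_nonneg _) (norm_co_le_raw u)

theorem tsum_co_le (u : Wi ω) : ∑' m, ‖co u m‖ ≤ ‖u‖ := by
  rw [norm_eq_raw]
  exact (summable_co u).tsum_le_tsum (norm_co_le_raw u) (summable_raw u)

variable (ω) in
/-- the element with given Fourier coefficients -/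
def mk (c : ℤ → A) (h : Summable fun m => ‖ω.w m * c m‖) : Wi ω :=
  (⟨fun m => ω.w m * c m, memℓp_gen (by simpa using h)⟩ : lp (fun _ : ℤ => A) 1)

theorem raw_mk (c : ℤ → A) (h : Summable fun m => ‖ω.w m * c m‖) (m : ℤ) :
    raw (mk ω c h) m = ω.w m * c m := rfl

@[simp] theorem co_mk (c : ℤ → A) (h : Summable fun m => ‖ω.w m * c m‖) (m : ℤ) :
    co (mk ω c h) m = c m := by
  rw [co, raw_mk, ← mul_assoc, mul_comm (ω.wi m), ω.mul_inv, one_mul]

theorem norm_mk (c : ℤ → A) (h : Summable fun m => ‖ω.w m * c m‖) :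
    ‖mk ω c h‖ = ∑' m, ‖ω.w m * c m‖ := by
  simp only [norm_eq, co_mk]

theorem ext_raw {u v : Wi ω} (h : ∀ m, raw u m = raw v m) : u = v :=
  lp.ext (f := toLp u) (g := toLp v) (funext h)

@[ext] theorem ext {u v : Wi ω} (h : ∀ m, co u m = co v m) : u = v :=
  ext_raw fun m => by rw [← w_mul_co, ← w_mul_co, h]

theorem raw_add (u v : Wi ω) (m : ℤ) : raw (u + v) m = raw u m + raw v m := rfl
theorem raw_neg (u : Wi ω) (m : ℤ) : raw (-u) m = -raw u m := rfl
theorem raw_zero (m : ℤ) : raw (0 : Wi ω) m = 0 := rfl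

@[simp] theorem co_add (u v : Wi ω) (m : ℤ) : co (u + v) m = co u m + co v m := by
  rw [co, raw_add, mul_add]; rfl

@[simp] theorem co_neg (u : Wi ω) (m : ℤ) : co (-u) m = -co u m := by
  rw [co, raw_neg, mul_neg]; rfl

@[simp] theorem co_sub (u v : Wi ω) (m : ℤ) : co (u - v) m = co u m - co v m := by
  rw [sub_eq_add_neg, co_add, co_neg, sub_eq_add_neg]

@[simp] theorem co_zero (m : ℤ) : co (0 : Wi ω) m = 0 := by rw [co, raw_zero, mul_zero]

/-- a bound for the norm from a termwise bound -/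
theorem norm_le_of {u : Wi ω} {b : ℤ → ℝ} {B : ℝ} (hb : HasSum b B)
    (h : ∀ m, ‖ω.w m * co u m‖ ≤ b m) : ‖u‖ ≤ B :=
  hasSum_le h (hasSum_norm u) hb

variable (ω) in
/-- the monomial `a e^{i k θ}` -/
def single (k : ℤ) (a : A) : Wi ω :=
  mk ω (Pi.single k a) (summable_of_ne_finset_zero (s := {k}) fun m hm => by
    rw [Pi.single_eq_of_ne (by simpa using hm)]; simp)

theorem co_single (k : ℤ) (a : A) (m : ℤ) : co (single ω k a) m = if m = k then a else 0 := by
  rw [single, co_mk, Pi.single_apply]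

@[simp] theorem co_single_self (k : ℤ) (a : A) : co (single ω k a) k = a := by simp [co_single]

theorem co_single_ne {k m : ℤ} (h : m ≠ k) (a : A) : co (single ω k a) m = 0 := by
  simp [co_single, h]

theorem norm_single (k : ℤ) (a : A) : ‖single ω k a‖ = ‖ω.w k * a‖ := by
  rw [norm_eq, tsum_eq_single k fun m hm => by rw [co_single_ne hm]; simp, co_single_self]

/-! ### the product -/

/-- `(m, j) ↦ (j, m - j)` -/
def shear : ℤ × ℤ ≃ ℤ × ℤ where
  toFun p := (p.2, p.1 - p.2)
  invFun q := (q.1 + q.2, q.1)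
  left_inv p := by simp
  right_inv q := by simp

theorem summable_shear (u v : Wi ω) :
    Summable fun p : ℤ × ℤ => ‖raw u p.2‖ * ‖raw v (p.1 - p.2)‖ :=
  (shear.summable_iff (f := fun q : ℤ × ℤ => ‖raw u q.1‖ * ‖raw v q.2‖)).2
    ((summable_raw u).mul_of_nonneg (summable_raw v) (fun _ => norm_nonneg _)
      fun _ => norm_nonneg _)

theorem tsum_shear (u v : Wi ω) :
    ∑' m, ∑' j, ‖raw u j‖ * ‖raw v (m - j)‖ = ‖u‖ * ‖v‖ := by
  rw [← (summable_shear u v).tsum_prod, norm_eq_raw, norm_eq_raw,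
    tsum_mul_tsum_of_summable_norm (by simpa using summable_raw u) (by simpa using summable_raw v)]
  exact shear.tsum_eq (fun q : ℤ × ℤ => ‖raw u q.1‖ * ‖raw v q.2‖)

theorem norm_term_le (u v : Wi ω) (m j : ℤ) :
    ‖ω.w m * (co u j * co v (m - j))‖ ≤ ‖raw u j‖ * ‖raw v (m - j)‖ := by
  have e : ω.w m * (co u j * co v (m - j)) =
      ω.w (j + (m - j)) * (ω.wi j * ω.wi (m - j)) * (raw u j * raw v (m - j)) := by
    rw [add_sub_cancel, co, co]; ring
  rw [e]
  exact (norm_mul_le _ _).trans ((mul_le_of_le_one_left (norm_nonneg _) (ω.sub _ _)).trans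
    (norm_mul_le _ _))

theorem summable_conv_norm (u v : Wi ω) (m : ℤ) :
    Summable fun j => ‖co u j * co v (m - j)‖ :=
  ((summable_shear u v).prod_factor m).of_nonneg_of_le (fun _ => norm_nonneg _) fun _ =>
    (norm_mul_le _ _).trans (mul_le_mul (norm_co_le_raw _ _) (norm_co_le_raw _ _) (norm_nonneg _)
      (norm_nonneg _))

variable [CompleteSpace A]

theorem norm_conv_le (u v : Wi ω) (m : ℤ) :
    ‖ω.w m * ∑' j, co u j * co v (m - j)‖ ≤ ∑' j, ‖raw u j‖ * ‖raw v (m - j)‖ := by
  rw [← (summable_conv_norm u v m).of_norm.tsum_mul_left]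
  exact tsum_of_norm_bounded ((summable_shear u v).prod_factor m).hasSum (norm_term_le u v m)

instance : Mul (Wi ω) :=
  ⟨fun u v => mk ω (fun m => ∑' j, co u j * co v (m - j))
    ((summable_shear u v).prod.of_nonneg_of_le (fun _ => norm_nonneg _) (norm_conv_le u v))⟩

instance : One (Wi ω) := ⟨single ω 0 1⟩

theorem co_mul (u v : Wi ω) (m : ℤ) : co (u * v) m = ∑' j, co u j * co v (m - j) := co_mk _ _ _

theorem one_def : (1 : Wi ω) = single ω 0 1 := rfl

theorem co_one (m : ℤ) : co (1 : Wi ω) m = if m = 0 then 1 else 0 := co_single _ _ _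

theorem norm_mul_le' (u v : Wi ω) : ‖u * v‖ ≤ ‖u‖ * ‖v‖ := by
  rw [← tsum_shear]
  exact norm_le_of (summable_shear u v).prod.hasSum fun m => by
    rw [co_mul]; exact norm_conv_le u v m

/-! ### synthesis -/

/-- `e^{i m θ}` -/
def ex (m : ℤ) (θ : ℝ) : ℂ := cexp (m * θ * I)

@[simp] theorem norm_ex (m : ℤ) (θ : ℝ) : ‖ex m θ‖ = 1 := by
  have : (m : ℂ) * θ * I = ((m * θ : ℝ) : ℂ) * I := by push_cast; ring
  rw [ex, this, norm_exp_ofReal_mul_I]

theorem ex_add (j l : ℤ) (θ : ℝ) : ex (j + l) θ = ex j θ * ex l θ := by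
  rw [ex, ex, ex, ← Complex.exp_add]; congr 1; push_cast; ring

@[simp] theorem ex_zero (θ : ℝ) : ex 0 θ = 1 := by simp [ex]

theorem continuous_ex (m : ℤ) : Continuous (ex m) := by unfold ex; fun_prop

theorem hasDerivAt_ex (m : ℤ) (θ : ℝ) : HasDerivAt (ex m) (m * I * ex m θ) θ := by
  have h : HasDerivAt (fun θ : ℝ => (m : ℂ) * θ * I) (m * 1 * I) θ :=
    ((ofRealCLM.hasDerivAt (x := θ)).const_mul (m : ℂ)).mul_const I
  have e : (m : ℂ) * I * ex m θ = cexp (m * θ * I) * (m * 1 * I) := by unfold ex; ring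
  rw [e]; exact h.cexp

theorem ex_periodic (m : ℤ) (θ : ℝ) : ex m (θ + 2 * Real.pi) = ex m θ := by
  have : (m : ℂ) * ((θ + 2 * Real.pi : ℝ) : ℂ) * I = m * θ * I + m * (2 * Real.pi * I) := by
    push_cast; ring
  rw [ex, this, Complex.exp_add, Complex.exp_int_mul_two_pi_mul_I, mul_one, ex]

theorem integral_ex (m : ℤ) :
    ∫ θ in (0 : ℝ)..2 * Real.pi, ex m θ = if m = 0 then ((2 * Real.pi : ℝ) : ℂ) else 0 := by
  split_ifs with h
  · simp [h]
  · have hm : (m : ℂ) * I ≠ 0 := mul_ne_zero (by exact_mod_cast h) I_ne_zero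
    have e : ∀ θ : ℝ, ex m θ = cexp (m * I * θ) := fun θ => by rw [ex]; congr 1; ring
    simp only [e]
    rw [integral_exp_mul_complex hm]
    have := ex_periodic m 0
    rw [e, e, zero_add] at this
    rw [this]; simp

variable [NormedAlgebra ℂ A]

theorem raw_smul (c : ℂ) (u : Wi ω) (m : ℤ) : raw (c • u) m = c • raw u m := rfl

@[simp] theorem co_smul (c : ℂ) (u : Wi ω) (m : ℤ) : co (c • u) m = c • co u m := by
  rw [co, raw_smul, mul_smul_comm]; rfl

/-- the function `θ ↦ ∑ e^{i m θ} co u m` -/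
def syn (u : Wi ω) (θ : ℝ) : A := ∑' m, ex m θ • co u m

theorem summable_syn_norm (u : Wi ω) (θ : ℝ) : Summable fun m => ‖ex m θ • co u m‖ := by
  simpa [norm_smul] using summable_co u

theorem hasSum_syn (u : Wi ω) (θ : ℝ) : HasSum (fun m => ex m θ • co u m) (syn u θ) :=
  (summable_syn_norm u θ).of_norm.hasSum

theorem norm_syn_le (u : Wi ω) (θ : ℝ) : ‖syn u θ‖ ≤ ‖u‖ :=
  (tsum_of_norm_bounded (summable_co u).hasSum fun m => by simp [norm_smul]).trans (tsum_co_le u)

theorem syn_add (u v : Wi ω) (θ : ℝ) : syn (u + v) θ = syn u θ + syn v θ :=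
  (hasSum_syn (u + v) θ).unique (by
    simpa [smul_add] using (hasSum_syn u θ).add (hasSum_syn v θ))

theorem syn_smul (c : ℂ) (u : Wi ω) (θ : ℝ) : syn (c • u) θ = c • syn u θ :=
  (hasSum_syn (c • u) θ).unique (by
    simpa [smul_comm c] using (hasSum_syn u θ).const_smul c)

theorem syn_zero (θ : ℝ) : syn (0 : Wi ω) θ = 0 := by simp [syn]

theorem syn_single (k : ℤ) (a : A) (θ : ℝ) : syn (single ω k a) θ = ex k θ • a := by
  rw [syn, tsum_eq_single k fun m hm => by rw [co_single_ne hm, smul_zero], co_single_self]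

theorem syn_one (θ : ℝ) : syn (1 : Wi ω) θ = 1 := by rw [one_def, syn_single]; simp

theorem syn_mul (u v : Wi ω) (θ : ℝ) : syn (u * v) θ = syn u θ * syn v θ := by
  have hs := summable_mul_of_summable_norm (summable_syn_norm u θ) (summable_syn_norm v θ)
  have hs' := (shear.summable_iff
    (f := fun q : ℤ × ℤ => (ex q.1 θ • co u q.1) * (ex q.2 θ • co v q.2))).2 hs
  rw [syn, syn, syn, tsum_mul_tsum_of_summable_norm (summable_syn_norm u θ) (summable_syn_norm v θ),
    ← shear.tsum_eq]
  refine Eq.trans ?_ hs'.tsum_prod.symm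
  refine tsum_congr fun m => ?_
  rw [co_mul, ← (summable_conv_norm u v m).of_norm.tsum_const_smul]
  refine tsum_congr fun j => ?_
  simp only [Function.comp, shear, Equiv.coe_fn_mk]
  rw [smul_mul_smul_comm, ← ex_add, add_sub_cancel]

theorem continuous_syn (u : Wi ω) : Continuous (syn u) :=
  continuous_tsum (fun m => (continuous_ex m).smul continuous_const) (summable_co u)
    fun m θ => by simp [norm_smul]

theorem syn_periodic (u : Wi ω) (θ : ℝ) : syn u (θ + 2 * Real.pi) = syn u θ := by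
  simp only [syn, ex_periodic]

/-- the coefficients are the Fourier coefficients of the synthesis -/
theorem integral_syn (u : Wi ω) (k : ℤ) :
    ∫ θ in (0 : ℝ)..2 * Real.pi, ex (-k) θ • syn u θ = ((2 * Real.pi : ℝ) : ℂ) • co u k := by
  have h := intervalIntegral.hasSum_integral_of_dominated_convergence (μ := volume) (a := (0 : ℝ))
    (b := 2 * Real.pi) (F := fun (m : ℤ) θ => ex (m - k) θ • co u m)
    (f := fun θ => ex (-k) θ • syn u θ) (fun m _ => ‖co u m‖)
    (fun m => ((continuous_ex _).smul continuous_const).aestronglyMeasurable)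
    (fun m => Filter.Eventually.of_forall fun θ _ => by simp [norm_smul])
    (Filter.Eventually.of_forall fun _ _ => summable_co u) intervalIntegrable_const
    (Filter.Eventually.of_forall fun θ _ => by
      have := (hasSum_syn u θ).const_smul (ex (-k) θ)
      simpa only [smul_smul, ← ex_add, neg_add_eq_sub] using this)
  refine h.unique ?_
  simp only [intervalIntegral.integral_smul_const, integral_ex]
  have := hasSum_single
    (f := fun m : ℤ => (if m - k = 0 then ((2 * Real.pi : ℝ) : ℂ) else 0) • co u m) k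
    fun m hm => by rw [if_neg (sub_ne_zero.2 hm), zero_smul]
  rw [if_pos (sub_self k)] at this
  exact this

theorem ext_syn {u v : Wi ω} (h : ∀ θ, syn u θ = syn v θ) : u = v := by
  refine ext fun m => ?_
  have h1 := integral_syn u m
  simp only [h, integral_syn] at h1
  have hp : ((2 * Real.pi : ℝ) : ℂ) ≠ 0 := by exact_mod_cast (by positivity : (2 * Real.pi) ≠ 0)
  exact (smul_right_injective A hp h1).symm

instance : CommRing (Wi ω) where
  __ := (inferInstance : AddCommGroup (Wi ω))
  mul_assoc u v w := ext_syn fun θ => by simp only [syn_mul, mul_assoc]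
  mul_comm u v := ext_syn fun θ => by simp only [syn_mul, mul_comm]
  one_mul u := ext_syn fun θ => by simp only [syn_mul, syn_one, one_mul]
  mul_one u := ext_syn fun θ => by simp only [syn_mul, syn_one, mul_one]
  zero_mul u := ext_syn fun θ => by simp only [syn_mul, syn_zero, zero_mul]
  mul_zero u := ext_syn fun θ => by simp only [syn_mul, syn_zero, mul_zero]
  left_distrib u v w := ext_syn fun θ => by simp only [syn_mul, syn_add, mul_add]
  right_distrib u v w := ext_syn fun θ => by simp only [syn_mul, syn_add, add_mul]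

instance : NormedCommRing (Wi ω) where
  __ := (inferInstance : CommRing (Wi ω))
  __ := (inferInstance : NormedAddCommGroup (Wi ω))
  norm_mul_le := norm_mul_le'

instance : Algebra ℂ (Wi ω) :=
  Algebra.ofModule (fun c u v => ext_syn fun θ => by simp only [syn_mul, syn_smul, smul_mul_assoc])
    fun c u v => ext_syn fun θ => by simp only [syn_mul, syn_smul, mul_smul_comm]

instance : NormedAlgebra ℂ (Wi ω) where
  norm_smul_le c u := norm_smul_le c u

instance [NormOneClass A] : NormOneClass (Wi ω) :=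
  ⟨by rw [one_def, norm_single, ω.zero, mul_one, norm_one]⟩

variable (ω) in
/-- evaluation at the angle `θ` -/
def ev (θ : ℝ) : Wi ω →A[ℂ] A where
  toFun u := syn u θ
  map_one' := syn_one θ
  map_mul' u v := syn_mul u v θ
  map_zero' := syn_zero θ
  map_add' u v := syn_add u v θ
  commutes' c := by
    rw [Algebra.algebraMap_eq_smul_one, syn_smul, syn_one, Algebra.algebraMap_eq_smul_one]
  cont := AddMonoidHomClass.continuous_of_bound
    (⟨⟨fun u => syn u θ, syn_zero θ⟩, fun u v => syn_add u v θ⟩ : Wi ω →+ A) 1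
    fun u => by simpa using norm_syn_le u θ

@[simp] theorem ev_apply (θ : ℝ) (u : Wi ω) : ev ω θ u = syn u θ := rfl

variable (ω) in
/-- the `m`-th coefficient as a continuous linear map -/
def coL (m : ℤ) : Wi ω →L[ℂ] A :=
  LinearMap.mkContinuous ⟨⟨fun u => co u m, fun u v => co_add u v m⟩, fun c u => co_smul c u m⟩ 1
    fun u => by simpa using norm_co_le u m

@[simp] theorem coL_apply (m : ℤ) (u : Wi ω) : coL ω m u = co u m := rfl

theorem single_mul_co (k : ℤ) (a : A) (u : Wi ω) (m : ℤ) :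
    co (single ω k a * u) m = a * co u (m - k) := by
  rw [co_mul, tsum_eq_single k fun j hj => by rw [co_single_ne hj, zero_mul], co_single_self]

variable (ω) in
/-- `θ`-independent elements -/
def cst : A →A[ℂ] Wi ω where
  toFun a := single ω 0 a
  map_one' := rfl
  map_mul' a b := ext_syn fun θ => by simp [syn_mul, syn_single]
  map_zero' := ext_syn fun θ => by simp [syn_single, syn_zero]
  map_add' a b := ext_syn fun θ => by simp [syn_add, syn_single]
  commutes' c := ext_syn fun θ => by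
    simp [syn_single, Algebra.algebraMap_eq_smul_one, syn_smul, syn_one]
  cont := AddMonoidHomClass.continuous_of_bound
    (⟨⟨fun a => single ω 0 a, ext_syn fun θ => by simp [syn_single, syn_zero]⟩,
      fun a b => ext_syn fun θ => by simp [syn_add, syn_single]⟩ : A →+ Wi ω) 1
    fun a => by simp [norm_single, ω.zero]

theorem cst_apply (a : A) : cst ω a = single ω 0 a := rfl

@[simp] theorem norm_cst (a : A) : ‖cst ω a‖ = ‖a‖ := by simp [cst_apply, norm_single, ω.zero]

@[simp] theorem syn_cst (a : A) (θ : ℝ) : syn (cst ω a) θ = a := by simp [cst_apply, syn_single]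

@[simp] theorem co_cst_mul (a : A) (u : Wi ω) (m : ℤ) : co (cst ω a * u) m = a * co u m := by
  rw [cst_apply, single_mul_co, sub_zero]

theorem co_cst (a : A) (m : ℤ) : co (cst ω a) m = if m = 0 then a else 0 := co_single _ _ _

/-- every element is the sum of its modes -/
theorem hasSum_single' (u : Wi ω) : HasSum (fun m => single ω m (co u m)) u := by
  have hs : Summable fun m => single ω m (co u m) :=
    .of_norm (by simpa only [norm_single] using summable_w u)
  have e : ∑' m, single ω m (co u m) = u := ext fun k => by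
    rw [← coL_apply, (coL ω k).map_tsum hs, tsum_eq_single k fun m hm => by
      rw [coL_apply, co_single_ne hm.symm], coL_apply, co_single_self]
  simpa only [e] using hs.hasSum

end Wi

end Crest.Agent.N250

end
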